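import Vale.Agent.P296.Analysis.Main
import Vale.Agent.P296.Counterexample

/-! An ample rank three bundle on a smooth projective surface without a Griffiths positive metric. -/

open Set
open scoped Manifold ContDiff Topology

noncomputable section

theorem Vale.Agent.Results.P296.GriffithsCounterexample.result :
    ∃ (M : Type) (_ : TopologicalSpace M) (_ : ChartedSpace (Vale.Agent.P296.Cn 2) M),
      T2Space M ∧ CompactSpace M ∧ ConnectedSpace M ∧
      IsManifold 𝓘(ℂ, Vale.Agent.P296.Cn 2) ω M ∧
      Vale.Agent.P296.IsProjectiveEmbeddable 2 M ∧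
      ∃ (ι : Type) (Z : VectorBundleCore ℂ M (Fin 3 → ℂ) ι),
        Z.IsContMDiff 𝓘(ℂ, Vale.Agent.P296.Cn 2) ω ∧
        Vale.Agent.P296.IsAmple 2 Z ∧
        ∀ H, Vale.Agent.P296.IsHermitianMetric 2 Z H →
          ¬ Vale.Agent.P296.IsGriffithsPositive 2 Z H :=
  Vale.Agent.P296.counterexample_of_core Vale.Agent.P296.An.core
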